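import Vale.Agent.P270H.Co.O0f
import Vale.Agent.P285S.Bs2.Zup

/-!
# A curve in the correspondence which misses the four divisors
-/

open scoped Manifold ContDiff Topology
open Set Filter Function
open Vale.Agent.P272.K Vale.Agent.P285.H281.FD Vale.Agent.P281Z Vale.Agent.P280Z
open Vale.Agent.P277.HD (pull)
open Vale.Agent.P285W Vale.Agent.P285W.J Vale.Agent.P285W.O
open Vale.Agent.P285W.Bs (Cp KU)
open Vale.Agent.P285S Vale.Agent.P285S.Ob Vale.Agent.P285S.E3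

noncomputable section

namespace Vale.Agent.P270H.Co

/-- the null hypersurfaces are contracted by `g` -/
def NS (T : CT) {n : ℕ} (Y : Mf n) (l g : T.H Y) (ν : ℕ) : Prop :=
  ∀ (d : ℕ) (U : Mf d) (p : U.X → Y.X) (hp : HolM d n p), B2.Nh T Y l ν U hp →
    T.int U (T.pull hp (g ^ d)) = 0

/-- the version of `O0F` with the numerical hypothesis on the canonical class -/
theorem o0g_of {Q : Ex} (hW : WDQ Q) {T : CT} (hT : T.OK) {n : ℕ} {Y : Mf n} {L A : Bd Y.X} {ν : ℕ}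
    (hB : B2.Ba Y L A)
    (hK : T.int Y (kc T Y * T.c1 Y L ^ ν * T.c1 Y A ^ (n - 1 - ν)) ≤ 0)
    (hS : Neg n (Tr T Y (T.c1 Y L))) (hν : B2.Nu T Y (T.c1 Y L) ν) (h0 : 0 < ν) (h1 : ν < n) :
    CA T Y (T.c1 Y L) (T.c1 Y A) ν ∨ B2.SC T Y (T.c1 Y L) ν ∨ CO2 Q T Y L A ν := by
  have hb : Bz Y L A := ⟨hB.conn, hB.lL, hB.lA, hB.pos, hB.bA⟩
  have hl := hb.nef hT
  have ha := hb.kc0 hT
  have k := nu_of hT hl ha hν h0 h1
  have u := uby T hT n ν Y L A hb k hK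
  refine (Ob.caseA hT jet famg jac nl hb k hS).imp_right fun ⟨S, k1, k2, k3⟩ => ?_
  by_cases e : SN T Y (T.c1 Y L) (T.c1 Y L) (T.c1 Y A) ν
  · exact .inl (sc_of hT hb.cp hl hν (sk_of hT hl ha e))
  · exact .inr (co2 hW hT hb hB.bL k u k1 k2 k3 e)

variable {T : CT} (hT : T.OK) {d ν : ℕ} {Y U : Mf (d + 1)}

include hT

/-- null divisors on a cover are contracted -/
theorem ns_up {p : U.X → Y.X} (hp : HolM (d + 1) (d + 1) p) {l g : T.H Y} (hU : Cp U)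
    (hl : Nf T Y l) (h : NS T Y l g ν) {m : T.H U} (e : Ef T U m)
    (z : ∀ y, Mn T Y y → T.int U (m * T.pull hp (l ^ ν * y)) = 0) :
    T.int U (m * T.pull hp (g ^ d)) = 0 := by
  obtain ⟨ι, _, β, E, i, hi, h1, h2⟩ := dec.dec T hT d U m hU (B2.ZupH.cn e)
  have c := fun s => hT.rg.pull_comp (hi s) hp (hp.comp (hi s)) fun _ => rfl
  rw [h2]
  refine Finset.sum_eq_zero fun s _ => mul_eq_zero_of_right _ ?_
  rw [← c]
  by_cases k : ∃ x, Imm d (d + 1) (fun x => p (i s x)) x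
  · refine h d (E s) _ _ ⟨rfl, (h1 s).2.1, k, fun y hy => ?_⟩
    have k1 := z y hy
    rw [h2] at k1
    rw [c]
    exact (mul_eq_zero.1 ((Finset.sum_eq_zero_iff_of_nonneg fun t _ => mul_nonneg (h1 t).1.le
      (mn_int hT (mn_pull hT (hi t) (mn_pull hT hp ((hl.mn.pow ν).mul hy))))).1 k1 s
        (Finset.mem_univ s))).resolve_left (h1 s).1.ne'
  · exact Ps.van0 hT _ (not_exists.1 k) _

/-- a section of a bundle of degree zero on a curve -/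
theorem nz_crv {C : Mf 1} {D : Bd C.X} {s : D.ι → C.X → ℂ} (h1 : IsLB 1 D) (h2 : IsSec 1 D s)
    (h3 : Dense {x | NZ D s x}) (h0 : T.int C (T.c1 C D) = 0) (x : C.X) : NZ D s x := by
  by_contra k
  have := (hT.eff C D s 0 Fin.elim0 rfl h1 h2 h3 fun i => i.elim0).2 (fun i => i.elim0) ⟨x, k⟩
  simp [h0] at this

/-- a complete intersection curve which misses contracted divisors -/
theorem cut {κ : Type} [Finite κ] (D : κ → Bd U.X) (s : ∀ k, (D k).ι → U.X → ℂ) {g z : T.H U}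
    (hU : Cp U) (hg : Bf T U g) (h1 : ∀ k, IsLB (d + 1) (D k)) (h2 : ∀ k, IsSec (d + 1) (D k) (s k))
    (h3 : ∀ k, Neg (d + 1) {x | ¬ NZ (D k) (s k) x})
    (h4 : ∀ k, T.int U (T.c1 U (D k) * g ^ d) = 0) (hz : 0 < T.int U (z * g ^ d)) :
    ∃ (C : Mf 1) (i : C.X → U.X) (hi : HolM 1 (d + 1) i), Cp C ∧ (∀ k x, NZ (D k) (s k) (i x)) ∧
      0 < T.int C (T.pull hi z) := by
  obtain ⟨ι, _, Z, i, h, k1, k2⟩ := cuts_of Ct.cut T hT d 1 (d + 1) U _ _ (Nat.add_comm _ _) hU.conn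
    (mb_pow hg d) (Neg.iUnion h3)
  rw [mul_comm, k2] at hz
  obtain ⟨j, -, hj⟩ := Finset.exists_lt_of_sum_lt (f := fun _ => (0 : ℝ)) (by simpa using hz)
  have n : ∀ k j, Neg 1 (i j ⁻¹' {x | ¬ NZ (D k) (s k) x}) := fun k j =>
    (k1 j).2.1.mono (preimage_mono (subset_iUnion (fun k => {x | ¬ NZ (D k) (s k) x}) k))
  refine ⟨Z j, i j, h j, ⟨(k1 j).1, (k1 j).2.2 hU.prj⟩, fun k x => nz_crv hT ((h j).lb (h1 k))
    ((h j).sec (h2 k)) ((n k j).dense.mono fun _ a => not_not.1 a) ?_ x, hj⟩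
  have k3 := h4 k
  rw [mul_comm, k2] at k3
  rw [hT.c1.pull (h j) _ (h1 k)]
  exact (Finset.sum_eq_zero_iff_of_nonneg fun t _ => by
    simpa using ef_int hT (ef_pull hT (h t) (h1 k) (h2 k) (n k t)) mn_one).1 k3 j (Finset.mem_univ j)

/-- **CRV** -/
theorem crv {L A : Bd Y.X} {W : Wd Y} {π : U.X → W.W.X}
    {h : HolM (d + 1) (d + 1 + (d + 1) + 1) π} {F : Fm W.W U π (d + 1 + 1)} {R R₁ : Bd U.X}
    {r : R.ι → U.X → ℂ} {r₁ : R₁.ι → U.X → ℂ} (c : Fc T L A ν W U π h F R R₁ r r₁) {g : T.H Y}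
    (hY : Cp Y) (hl : Nf T Y (T.c1 Y L)) (ha : T.Kc Y (T.c1 Y A))
    (hK : T.int Y (kc T Y * T.c1 Y L ^ ν * T.c1 Y A ^ (d + 1 - 1 - ν)) ≤ 0) (hg : Bf T Y g)
    (h0 : 0 < T.int Y (T.c1 Y L * g ^ d)) (hN : NS T Y (T.c1 Y L) g ν) :
    ∃ (C : Mf 1) (i : C.X → U.X) (hi : HolM 1 (d + 1) i), Cp C ∧
      (∀ x, Imm (d + 1 + (d + 1) + 1) (d + 1 + (d + 1) + 1) F.π (F.i (i x)) ∧
        Imm (d + 1) (d + 1) (fun v => W.p1 (π v)) (i x) ∧ NZ W.D1 W.t1 (π (i x)) ∧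
        NZ W.D2 W.t2 (π (i x))) ∧ 0 < T.int C (T.pull ((W.h2.comp h).comp hi) (T.c1 Y L)) := by
  have hp := W.h2.comp h
  have := hY.conn
  have := c.cp.conn
  obtain ⟨a, a1, a2⟩ := Ps.fub1 hT hY.conn (DecH.kah hT hY.prj) hp
  obtain ⟨x, hx⟩ := Ps.imm_of_surj hp c.sj
  replace a2 := a2 x hx
  have k := nf_pull hT hp hl
  have e0 : Ef T U (T.c1 U R) := ⟨R, r, c.lR, c.sR, c.dR, rfl⟩
  have e1 : Ef T U (T.c1 U R₁) := ⟨R₁, r₁, c.l1, c.s1, c.d1, rfl⟩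
  have e2 := ef_pull hT h c.ok.l1 c.ok.s1 c.t1
  have e3 := ef_pull hT h c.ok.l2 c.ok.s2 c.t2
  have m := (hl.mn.pow ν).mul ((kc_nf hT ha).mn.pow (d + 1 - 1 - ν))
  have q := congrArg (fun u => T.int U (u * T.pull hp (T.c1 Y L ^ ν *
    T.c1 Y A ^ (d + 1 - 1 - ν)))) c.cl
  simp only [add_mul, map_add] at q
  rw [c.nul _ ((kc_nf hT ha).mn.pow _), ← map_mul, a1, ← mul_assoc] at q
  have p1 := ef_int hT e1 (mn_pull hT hp m)
  have p2 := ef_int hT e2 (mn_pull hT hp m)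
  have p3 := ef_int hT e3 (mn_pull hT hp m)
  have p4 := mul_nonpos_of_nonneg_of_nonpos a2.le hK
  have z : ∀ e, Ef T U e → T.int U (e * T.pull hp (T.c1 Y L ^ ν *
      T.c1 Y A ^ (d + 1 - 1 - ν))) = 0 → T.int U (e * T.pull hp g ^ d) = 0 := fun e he j => by
    rw [← map_pow]
    refine ns_up hT hp c.cp hl hN he fun y hy => ?_
    rw [map_mul (T.pull _), map_pow, ← mul_assoc]
    exact mn_zero hT _ ha (dg_mul hT (ef_dg hT he) (dg_pow hT (nf_dg hT k) ν))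
      (fun y hy => mul_assoc e _ y ▸ ef_int hT he ((k.mn.pow ν).mul hy))
      (fun _ => by
        rw [add_comm 1 ν, ← Nat.sub_sub, Nat.sub_right_comm, mul_assoc, ← map_pow, ← map_pow,
          ← map_mul]
        exact j) hy
  have th : ∀ {D : Bd U.X} {s : D.ι → U.X → ℂ}, IsLB (d + 1) D → IsSec (d + 1) D s →
      Dense {x | NZ D s x} → Neg (d + 1) {x | ¬ NZ D s x} := fun h1 h2 h3 =>
    Thin.neg ⟨fun y => (h1.cover y).elim fun a ha => ⟨1, fun _ => _, fun _ => sec_hol h2 ha,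
      (lb_near h1 ha).mono fun _ k => (Ld.not_nz h1 h2 k).trans (by simp)⟩, by
      simpa [compl_ofPred] using h3⟩
  obtain ⟨C, i, hi, c1, c2, c3⟩ := cut hT (κ := Fin 4) ![R, R₁, pull π W.D1, pull π W.D2]
    (Fin.cons r (Fin.cons r₁ (Fin.cons (fun a x => W.t1 a (π x))
      (Fin.cons (fun a x => W.t2 a (π x)) fun j => j.elim0))))
    (z := T.pull hp (T.c1 Y L)) c.cp (bf_pull hT hp hg)
    (by simpa [Fin.forall_fin_succ] using ⟨c.lR, c.l1, h.lb c.ok.l1, h.lb c.ok.l2⟩)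
    (Fin.forall_fin_succ.2 ⟨c.sR, Fin.forall_fin_succ.2 ⟨c.s1, Fin.forall_fin_succ.2
      ⟨h.sec c.ok.s1, Fin.forall_fin_succ.2 ⟨h.sec c.ok.s2, fun j => j.elim0⟩⟩⟩⟩)
    (Fin.forall_fin_succ.2 ⟨th c.lR c.sR c.dR, Fin.forall_fin_succ.2 ⟨th c.l1 c.s1 c.d1,
      Fin.forall_fin_succ.2 ⟨c.t1, Fin.forall_fin_succ.2 ⟨c.t2, fun j => j.elim0⟩⟩⟩⟩)
    (Fin.forall_fin_succ.2 ⟨z _ e0 (c.nul _ ((kc_nf hT ha).mn.pow _)), Fin.forall_fin_succ.2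
      ⟨z (T.c1 U R₁) e1 (by linarith), Fin.forall_fin_succ.2 ⟨(hT.c1.pull h _ c.ok.l1).symm ▸ z _ e2
        (by linarith), Fin.forall_fin_succ.2 ⟨(hT.c1.pull h _ c.ok.l2).symm ▸ z _ e3 (by linarith),
          fun j => j.elim0⟩⟩⟩⟩)
    (by rw [← map_pow, ← map_mul, a1]; exact mul_pos a2 h0)
  exact ⟨C, i, hi, c1, fun x => ⟨(c.zR _).1 (c2 0 x), (c.z1 _).1 (c2 1 x), c2 2 x, c2 3 x⟩,
    (hT.rg.pull_comp hi hp (hp.comp hi) (fun _ => rfl) _).symm ▸ c3⟩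

end Vale.Agent.P270H.Co
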