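import Vale.Agent.P285S.Ob.All

/-!
# The theorem O0 with the family of correspondences in the output
-/

open scoped Manifold ContDiff Topology
open Set Filter Function
open Vale.Agent.P272.K Vale.Agent.P285.H281.FD Vale.Agent.P281Z Vale.Agent.P280Z
open Vale.Agent.P277.HD (pull)
open Vale.Agent.P285W Vale.Agent.P285W.J Vale.Agent.P285W.O
open Vale.Agent.P285W.Bs (Cp KU)
open Vale.Agent.P285S Vale.Agent.P285S.Ob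

noncomputable section

namespace Vale.Agent.P270H.Co

/-- additional properties of `W` -/
abbrev Ex : Type 1 := ∀ (n : ℕ) (Y : Mf n), Bd Y.X → Wd Y → Prop

/-- **WDQ**: the row `WD` with an additional property of `W` -/
def WDQ (Q : Ex) : Prop := ∀ T : CT, T.OK → ∀ (n : ℕ) (Y : Mf n) (L A : Bd Y.X), Bz Y L A →
  Bpf n (L.mul A) → 0 < n → ∃ W : Wd Y, Q n Y L W ∧ W.Ok T L A ∧ IsLB (n + n + 1) W.ξ ∧
    kc T W.W + T.c1 W.W W.D1 + T.c1 W.W W.D2 = T.pull W.h1 (kc T Y) + T.pull W.h2 (kc T Y) ∧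
    ∀ (k : ℕ) (σ : ℝ) (S : Set W.W.X), 0 < k → 0 < σ → Neg (n + n + 1) S →
      (∃ q H₀ : ℕ, 0 < q ∧ ∀ H : ℕ, H₀ ≤ H → ∀ m : ℕ, (m : ℝ) < σ * q * H →
        Wr.LB n L A (H * (q * k)) (H * q) m) ∨ Sv T W.W (W.g T A k) σ S

/-- a correspondence which moves in a family; `R`, `R₁` are the ramification divisors -/
structure Fc (T : CT) {n : ℕ} {Y : Mf n} (L A : Bd Y.X) (ν : ℕ) (W : Wd Y) (U : Mf n)
    (π : U.X → W.W.X) (h : HolM n (n + n + 1) π) (F : Fm W.W U π (n + 1)) (R R₁ : Bd U.X)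
    (r : R.ι → U.X → ℂ) (r₁ : R₁.ι → U.X → ℂ) : Prop where
  ok : W.Ok T L A
  cp : Cp U
  bi : Bi π
  a1 : 0 < T.int U (T.pull (W.h1.comp h) (T.c1 Y A) ^ n)
  a2 : 0 < T.int U (T.pull (W.h2.comp h) (T.c1 Y A) ^ n)
  sj : Surjective fun v => W.p2 (π v)
  np : ¬ Ps T U (T.pull h (T.c1 W.W W.ξ)) (T.pull h (W.g T A 1)) (ν + 1)
  lR : IsLB n R
  sR : IsSec n R r
  zR : ∀ v, NZ R r v ↔ Imm (n + n + 1) (n + n + 1) F.π (F.i v)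
  dR : Dense {v | NZ R r v}
  l1 : IsLB n R₁
  s1 : IsSec n R₁ r₁
  z1 : ∀ v, NZ R₁ r₁ v ↔ Imm n n (fun v => W.p1 (π v)) v
  d1 : Dense {v | NZ R₁ r₁ v}
  t1 : Neg n {v | ¬ NZ W.D1 W.t1 (π v)}
  t2 : Neg n {v | ¬ NZ W.D2 W.t2 (π v)}
  nul : ∀ y, Mn T Y y → T.int U (T.c1 U R * T.pull (W.h2.comp h) (T.c1 Y L ^ ν * y)) = 0
  cl : T.c1 U R₁ + T.pull h (T.c1 W.W W.D1) + T.pull h (T.c1 W.W W.D2) =
    T.c1 U R + T.pull (W.h2.comp h) (kc T Y)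

/-- the family of correspondences -/
def CO2 (Q : Ex) (T : CT) {n : ℕ} (Y : Mf n) (L A : Bd Y.X) (ν : ℕ) : Prop :=
  ∃ (W : Wd Y) (U : Mf n) (π : U.X → W.W.X) (h : HolM n (n + n + 1) π) (F : Fm W.W U π (n + 1))
    (R R₁ : Bd U.X) (r : R.ι → U.X → ℂ) (r₁ : R₁.ι → U.X → ℂ), Q n Y L W ∧
    Fc T L A ν W U π h F R R₁ r r₁

/-- **O0F** -/
def O0F (Q : Ex) : Prop := ∀ T : CT, T.OK → ∀ (n : ℕ) (Y : Mf n) (L A : Bd Y.X) (ν : ℕ),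
  B2.Ba Y L A → KU Y L A → Neg n (Tr T Y (T.c1 Y L)) → B2.Nu T Y (T.c1 Y L) ν → 0 < ν → ν < n →
  CA T Y (T.c1 Y L) (T.c1 Y A) ν ∨ B2.SC T Y (T.c1 Y L) ν ∨ CO2 Q T Y L A ν

open TopB JetH in
theorem co2 {Q : Ex} (hW : WDQ Q) {T : CT} (hT : T.OK) {n ν : ℕ} {Y : Mf n} {L A : Bd Y.X}
    {S : Set Y.X} (hb : Bz Y L A) (bL : Bpf n (L.mul A))
    (hν : O.Nu T Y (T.c1 Y L) (T.c1 Y A) ν) (hU : O.UH Y L A ν) (hS : Neg n S)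
    (st : St T Y (T.c1 Y L) (T.c1 Y A) S ν) (sl : Sl T Y (T.c1 Y L) (T.c1 Y A) S ν n)
    (hne : ¬ SN T Y (T.c1 Y L) (T.c1 Y L) (T.c1 Y A) ν) : CO2 Q T Y L A ν := by
  have hJ := jet
  have hC := case_of imn
  have lt := hν.lt
  have ba : Bf T Y (T.c1 Y A) := ⟨A, hb.lA, hb.bA, rfl⟩
  have hc : Cl T Y (T.c1 Y L) (T.c1 Y A) S ν :=
    ⟨⟨hb.conn, _, lb_mul (lb_pow hb.lL 0) hb.lA, hb.pos 0⟩, bz_nef hT hb, bz_kc0 hT hb, ba, hν,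
      hS, st⟩
  obtain ⟨ε, S', hε, hS', hY⟩ := hJ T hT n ν n Y L A S hb hS sl
  obtain ⟨C, hC0, hU⟩ := hU ε hε
  obtain ⟨R, κ₀, hR0, hL⟩ := nlb n ν Y L A C hb.conn lt hb.lL hb.lA hC0
  obtain ⟨κ₁, hV⟩ := vans T hT n ν R
  obtain ⟨W, hQ, hW1, lξ, hk, hW⟩ := hW T hT n Y L A hb bL (by omega)
  have hκ : 0 < κ₀ + κ₁ + 1 := Nat.succ_pos _
  obtain ⟨q, H₀, hq, hY⟩ := hY _ hκ
  obtain ⟨y₀, hy₀⟩ := have := hb.conn; hS'.dense.nonempty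
  obtain ⟨D, hD, hU⟩ := hU _ q hκ hq ⟨y₀, H₀, hY y₀ hy₀⟩
  have hS1 := fun S' hS' => (hW _ (R * (κ₀ + κ₁ + 1 : ℕ) ^ ν) S' (pow_pos hκ n)
    (mul_pos hR0 (pow_pos (Nat.cast_pos.2 hκ) _)) hS').resolve_left fun ⟨q', H₀, k1, k2⟩ =>
      hL _ (by omega) D hD hU q' H₀ k1 k2
  obtain ⟨G, lG, bG, cG⟩ := hW1.bf
  have bW : Bz W.W W.ξ G := ⟨hW1.conn, lξ, lG, fun k => hT.kp _ _ (lb_mul (lb_pow lξ k) lG) (by
    rw [hT.c1.mul _ _ _ (lb_pow lξ k) lG, hT.c1.pow _ _ _ lξ, cG, add_comm (_ • _)]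
    exact Ct.kc_nef hT hW1.kc (nf_smul hT k.cast_nonneg hW1.nef)), bG⟩
  obtain ⟨S₁, k1, k2, k3⟩ := negl.sat _ W.W _ (bad_neg hW1 hS)
  obtain ⟨ε', S₂, hε', hS₂, hJ⟩ := hJ T hT _ ν n W.W W.ξ G S₁ bW k2 fun u U p hp hU hu hB hx => by
    rw [cG]
    rcases cs hT hC hc hne hW1 hp hU hB hu ((k3 u U p hp hU.conn hx).mono (preimage_mono k1))
      with ⟨c, c1, c2⟩ | ⟨rfl, -, -, c2⟩
    exacts [⟨c, c1.le, c2⟩, ⟨ν, (mul_comm _ _).le, c2⟩]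
  obtain ⟨S₃, l1, l2, l3⟩ := negl.sat _ W.W _ ((bad_neg hW1 hS).union hS₂)
  let Gd : ∀ U : Mf n, (U.X → W.W.X) → Prop := fun U π => ∃ h : HolM n (n + n + 1) π, Cp U ∧ Bi π ∧
    Neg n (π ⁻¹' S₃) ∧ 0 < T.int U (T.pull (W.h1.comp h) (T.c1 Y A) ^ n) ∧
    0 < T.int U (T.pull (W.h2.comp h) (T.c1 Y A) ^ n) ∧
    ¬ Ps T U (T.pull h (T.c1 W.W W.ξ)) (T.pull h (W.g T A 1)) (ν + 1)
  have hP : ¬ Neg (n + n + 1) {y | ∃ U π, Gd U π ∧ y ∈ range π} := fun hP => by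
    obtain ⟨u, U, π, B, h, hu, c1, c2, ⟨y, hy⟩, hv⟩ := hS1 _ (l2.union hP)
    have m1 := l3 u U π h.hol c1 ⟨y, fun j => hy (.inl j)⟩
    have m2 : Neg u (π ⁻¹' bad W S) := m1.mono fun _ j => l1 (.inl j)
    obtain ⟨y₁, hy₁⟩ := h.dense.nonempty
    have hp := pd hT hW1 h.hol ⟨c1, c2⟩ ⟨B, h⟩ m2
    have g1 := g_eq hT (A := A) h.hol 1
    rw [Nat.cast_one, one_smul, add_assoc (T.pull _ _)] at g1
    rw [g_eq hT, add_assoc (_ • _)] at hv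
    have hv' := hV (κ₀ + κ₁ + 1) (by omega) u U _ _ (h.imm y₁ hy₁).le hp.nef
      (bf_add hT (bf_pull hT (W.h1.comp h.hol) ba) (bf_pull hT (W.h2.comp h.hol) ba))
      (g1 ▸ bf_pull hT h.hol hW1.bf) hv
    rw [← g1] at hv'
    rcases cs hT hC hc hne hW1 h.hol ⟨c1, c2⟩ ⟨B, h⟩ hu m2 with ⟨c, e1, e2⟩ | ⟨rfl, e1, e2, -⟩
    · exact e2.2.ne' (hv' c _ (Nat.add_sub_cancel' e2.1) e1)
    · exact hy (.inr ⟨U, π, ⟨h.hol, ⟨c1, c2⟩, ⟨B, h⟩, m1, e1, e2, fun c => c.2.ne'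
        (hv' _ _ (Nat.add_sub_cancel' c.1) (by rw [mul_add, mul_comm ν]; omega))⟩, y, rfl⟩)
  have hch : ∀ y : W.W.X, ∃ (U : Mf n) (π : U.X → W.W.X),
      y ∈ {y | ∃ U π, Gd U π ∧ y ∈ range π} → Gd U π ∧ y ∈ range π := fun y => by
    by_cases k : y ∈ {y | ∃ U π, Gd U π ∧ y ∈ range π}
    · obtain ⟨U, π, k⟩ := k
      exact ⟨U, π, fun _ => k⟩
    · exact ⟨Y, fun _ => y, fun j => absurd j k⟩
  choose U π hU using hch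
  obtain ⟨y, hy, b, ⟨F⟩⟩ := famg _ n W.W _ U π ⟨hW1.conn, hW1.prj⟩ (by omega) hP fun y hy =>
    (hU y hy).1.elim fun _ k => ⟨k.1, k.2.1, (hU y hy).2⟩
  obtain ⟨h, c1, c2, m1, a1, a2, np⟩ := (hU y hy).1
  have m2 : Neg n (π y ⁻¹' bad W S) := m1.mono fun _ j => l1 (.inl j)
  obtain rfl : b = n + 1 := by have := F.dim; omega
  have q1 := hT.rg.pull_comp h W.h1 (W.h1.comp h) fun _ => rfl
  have q2 := hT.rg.pull_comp h W.h2 (W.h2.comp h) fun _ => rfl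
  have hN := nl T hT _ n _ ν n ν W.W W.ξ G S₂ ε' _ _ h F _ _ bW hε' hν.pos n.succ_pos hJ c1 c2
    (m1.mono fun _ j => l1 (.inr j)) (mul_comm _ _).le lt (cG ▸ np)
    (nf_pull hT W.h2 hc.nef) ⟨_, W.h2.lb hb.lL, hT.c1.pull W.h2 L hb.lL⟩
    (nf_pull hT W.h2 (kc_nf hT hc.kc)) ⟨_, W.h2.lb hb.lA, hT.c1.pull W.h2 A hb.lA⟩ (by
      rw [← q2]
      exact le_of_ef hT zero_le_one (by simpa using (pd hT hW1 h c1 c2 m2).e2))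
  have := c1.conn
  obtain ⟨R, r, r1, r2, r3, r4⟩ := jac.fib T hT _ _ _ _ (U y) _ h F
  obtain ⟨v, hv⟩ := F.et
  obtain ⟨i, hi⟩ := r1.cover v
  have hd := dg_pow hT (hT.c1.deg Y A) n
  obtain ⟨x, hx⟩ := SurjAux.sbm hT (W.h1.comp h) hd fun c => by
    rw [← map_pow, c, map_zero] at a1
    exact a1.false
  obtain ⟨R₁, r₁, s1, s2, s3, s4⟩ := JacH.along hT (W.h1.comp h) (holM_id (X := (U y).X))
  obtain ⟨j, hj⟩ := s1.cover x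
  have dR := KodA.dense_nz r1 r2 hi ((r3 v).2 hv i hi)
  have eR : Ef T (U y) (T.c1 (U y) R) := ⟨R, r, r1, r2, dR, rfl⟩
  have k := nf_pull hT (W.h2.comp h) hc.nef
  refine ⟨W, U y, π y, h, F, R, R₁, r, r₁, hQ, hW1, c1, c2, a1, a2,
    (surj T hT _ _ _ Y _ (W.h2.comp h) _ 1 this hb.conn hd (by
      rw [mul_one, map_pow]; exact a2.ne')).1, np, r1, r2, r3, dR, s1, s2, s3,
    KodA.dense_nz s1 s2 hj ((s3 x).2 (imm_iff_sbm.2 hx) j hj),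
    m2.mono fun _ j => .inl (.inr j), m2.mono fun _ j => .inr j, fun z hz => ?_, ?_⟩
  · rw [map_mul (T.pull _), map_pow, ← mul_assoc]
    exact mn_zero hT _ hc.kc (dg_mul hT (ef_dg hT eR) (dg_pow hT (nf_dg hT k) ν))
      (fun y hy => mul_assoc (T.c1 _ R) _ y ▸ ef_int hT eR ((k.mn.pow ν).mul hy))
      (fun _ => by rw [← Nat.sub_sub, r4, q2, q2]; exact hN) hz
  · have := congrArg (T.pull h) hk
    simp only [map_add, ← q1, ← q2] at this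
    rw [s4, r4, hT.rg.pull_id, hT.rg.pull_id]
    linear_combination this

theorem o0f_of {Q : Ex} (hW : WDQ Q) : O0F Q := by
  intro T hT n Y L A ν hB hU hS hν h0 h1
  have hb : Bz Y L A := ⟨hB.conn, hB.lL, hB.lA, hB.pos, hB.bA⟩
  have hl := hb.nef hT
  have ha := hb.kc0 hT
  have k := nu_of hT hl ha hν h0 h1
  have u := kuh T hT n ν Y L A hb k hU
  refine (Ob.caseA hT jet famg jac nl hb k hS).imp_right fun ⟨S, k1, k2, k3⟩ => ?_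
  by_cases e : SN T Y (T.c1 Y L) (T.c1 Y L) (T.c1 Y A) ν
  · exact .inl (sc_of hT hb.cp hl hν (sk_of hT hl ha e))
  · exact .inr (co2 hW hT hb hB.bL k u k1 k2 k3 e)

end Vale.Agent.P270H.Co
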